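import Vale.Agent.P184.Curvature

namespace Vale.Agent.Results.P184.Curvature

open Vale.Agent.P184

/-- The quadrilateral inequality from midpoints satisfying the Bruhat–Tits inequality. -/
lemma quad_of_cn {Y : Type} [MetricSpace Y]
    (hcn : ∀ x y : Y, ∃ m : Y, ∀ z : Y,
      dist z m ^ 2 ≤ dist z x ^ 2 / 2 + dist z y ^ 2 / 2 - dist x y ^ 2 / 4)
    (a b c d : Y) :
    |dist a d ^ 2 + dist b c ^ 2 - dist a c ^ 2 - dist b d ^ 2|
      ≤ dist a b ^ 2 + dist c d ^ 2 := by
  have H : ∀ a b c d : Y, dist a c ^ 2 + dist b d ^ 2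
      ≤ dist a b ^ 2 + dist b c ^ 2 + dist c d ^ 2 + dist d a ^ 2 := by
    intro a b c d
    obtain ⟨m, hm⟩ := hcn b d
    have h1 := hm a
    have h2 := hm c
    have h3 := dist_triangle_right a c m
    have h4 := pow_le_pow_left₀ dist_nonneg h3 2
    rw [dist_comm c b] at h2
    rw [dist_comm d a]
    nlinarith [sq_nonneg (dist a m - dist c m)]
  have h1 := H a b d c
  have h2 := H a b c d
  rw [dist_comm c a, dist_comm d c] at h1
  rw [dist_comm d a] at h2
  exact abs_le.mpr ⟨by linarith, by linarith⟩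

/-- (A) For every isometric action of a group on a space with midpoints satisfying the
Bruhat–Tits inequality, that is of nonpositive curvature in the sense of Alexandrov, every element
of positive translation length has vanishing trace coefficient, with no condition on its
centralizer; (B) the same for affine isometric actions on real inner product spaces; (C) so the
`ℓ¹`-Bass conjecture holds for groups all of whose nontrivial elements have positive translation
length in such an action. -/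
theorem result :
    (∀ (G Y : Type) [Group G] [MetricSpace Y] [MulAction G Y],
      (∀ (k : G) (x y : Y), dist (k • x) (k • y) = dist x y) →
      (∀ x y : Y, ∃ m : Y, ∀ z : Y,
        dist z m ^ 2 ≤ dist z x ^ 2 / 2 + dist z y ^ 2 / 2 - dist x y ^ 2 / 4) →
      ∀ (g : G) (o : Y) (ε : ℝ), 0 < ε → (∀ n : ℕ, ε * n ≤ dist o (g ^ n • o)) →
      ∀ (q : ℕ) (e : G → Matrix (Fin q) (Fin q) ℂ), IsIdemL1 e →
        hsTrace (ConjClasses.mk g) e = 0) ∧
    (∀ (G E : Type) [Group G] [NormedAddCommGroup E] [InnerProductSpace ℝ E] [MulAction G E],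
      (∀ (k : G) (x y : E), ‖k • x - k • y‖ = ‖x - y‖) →
      ∀ (g : G) (ε : ℝ), 0 < ε → (∀ n : ℕ, ε * n ≤ ‖g ^ n • (0 : E)‖) →
      ∀ (q : ℕ) (e : G → Matrix (Fin q) (Fin q) ℂ), IsIdemL1 e →
        hsTrace (ConjClasses.mk g) e = 0) ∧
    ∀ (G Y : Type) [Group G] [MetricSpace Y] [MulAction G Y],
      (∀ (k : G) (x y : Y), dist (k • x) (k • y) = dist x y) →
      (∀ x y : Y, ∃ m : Y, ∀ z : Y,
        dist z m ^ 2 ≤ dist z x ^ 2 / 2 + dist z y ^ 2 / 2 - dist x y ^ 2 / 4) →
      (∀ g : G, g ≠ 1 → ∃ (o : Y) (ε : ℝ), 0 < ε ∧ ∀ n : ℕ, ε * n ≤ dist o (g ^ n • o)) →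
      ∀ (q : ℕ) (e : G → Matrix (Fin q) (Fin q) ℂ), IsIdemL1 e →
      ∀ C : ConjClasses G, C ≠ ConjClasses.mk 1 → hsTrace C e = 0 := by
  have main : ∀ (G Y : Type) [Group G] [MetricSpace Y] [MulAction G Y],
      (∀ (k : G) (x y : Y), dist (k • x) (k • y) = dist x y) →
      (∀ x y : Y, ∃ m : Y, ∀ z : Y,
        dist z m ^ 2 ≤ dist z x ^ 2 / 2 + dist z y ^ 2 / 2 - dist x y ^ 2 / 4) →
      ∀ (g : G) (o : Y) (ε : ℝ), 0 < ε → (∀ n : ℕ, ε * n ≤ dist o (g ^ n • o)) →
      ∀ (q : ℕ) (e : G → Matrix (Fin q) (Fin q) ℂ), IsIdemL1 e →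
        hsTrace (ConjClasses.mk g) e = 0 := by
    intro G Y _ _ _ hiso hcn g o ε hε hlin q e he
    refine hsTrace_eq_zero_of_quad g (fun x y => dist (x • o) (y • o))
      (fun x => dist_self _) (fun x y => dist_comm _ _) (fun x y z => dist_triangle _ _ _)
      (fun k x y => ?_) (fun a b c d => quad_of_cn hcn _ _ _ _) hε (fun n => ?_) he
    · show dist ((k * x) • o) ((k * y) • o) = _
      rw [mul_smul, mul_smul, hiso]
    · show _ ≤ dist ((1 : G) • o) (g ^ n • o)
      rw [one_smul]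
      exact hlin n
  refine ⟨main, ?_, ?_⟩
  · intro G E _ _ _ _ hiso g ε hε hlin q e he
    refine main G E (fun k x y => by rw [dist_eq_norm, dist_eq_norm, hiso]) (fun x y => ?_)
      g 0 ε hε (fun n => by rw [dist_zero_left]; exact hlin n) q e he
    refine ⟨(2 : ℝ)⁻¹ • (x + y), fun z => le_of_eq ?_⟩
    have h := parallelogram_law_with_norm ℝ (z - x) (z - y)
    have e1 : z - x + (z - y) = (2 : ℝ) • (z - (2 : ℝ)⁻¹ • (x + y)) := by
      rw [smul_sub, smul_smul, mul_inv_cancel₀ (two_ne_zero : (2 : ℝ) ≠ 0), one_smul, two_smul]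
      abel
    have e2 : z - x - (z - y) = y - x := by abel
    rw [e1, e2, norm_smul, Real.norm_two, norm_sub_rev y x] at h
    simp only [dist_eq_norm]
    nlinarith
  · intro G Y _ _ _ hiso hcn hall q e he C hC
    obtain ⟨g, rfl⟩ := ConjClasses.mk_surjective C
    obtain ⟨o, ε, hε, hlin⟩ := hall g fun h => hC (by rw [h])
    exact main G Y hiso hcn g o ε hε hlin q e he

end Vale.Agent.Results.P184.Curvature
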