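import Vale.Agent.P184.Linear

namespace Vale.Agent.Results.P184.LinearGroups

open Vale.Agent.P184
open Polynomial

/-- The `ℓ¹`-Bass conjecture for linear groups away from quasi-unipotent elements: (A) for every
representation over every field the coefficient vanishes at each element with an eigenvalue that
is not a root of unity; (B) for linear groups in positive characteristic it vanishes at all
infinite-order classes; (C) so the conjecture holds for all torsion-free such groups; (D) and for
torsion-free linear groups over any field whose nontrivial elements are not quasi-unipotent. -/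
theorem result :
    (∀ (G K : Type) [Group G] [Field K] (n : ℕ) (ρ : G →* Matrix (Fin n) (Fin n) K) (g : G)
      (a : AlgebraicClosure K), aeval a (ρ g).charpoly = 0 → (∀ m : ℕ, 0 < m → a ^ m ≠ 1) →
      ∀ (q : ℕ) (e : G → Matrix (Fin q) (Fin q) ℂ), IsIdemL1 e →
        hsTrace (ConjClasses.mk g) e = 0) ∧
    (∀ (G K : Type) [Group G] [Field K] (p : ℕ), p.Prime → CharP K p →
      ∀ (n : ℕ) (ρ : G →* Matrix (Fin n) (Fin n) K), Function.Injective ρ →
      ∀ (q : ℕ) (e : G → Matrix (Fin q) (Fin q) ℂ), IsIdemL1 e →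
        (∀ g : G, ¬IsOfFinOrder g → hsTrace (ConjClasses.mk g) e = 0) ∧
          ((∀ g : G, IsOfFinOrder g → g = 1) →
            ∀ C : ConjClasses G, C ≠ ConjClasses.mk 1 → hsTrace C e = 0)) ∧
    (∀ (G K : Type) [Group G] [Field K] (n : ℕ) (ρ : G →* Matrix (Fin n) (Fin n) K),
      (∀ g : G, g ≠ 1 → ∃ a : AlgebraicClosure K,
        aeval a (ρ g).charpoly = 0 ∧ ∀ m : ℕ, 0 < m → a ^ m ≠ 1) →
      ∀ (q : ℕ) (e : G → Matrix (Fin q) (Fin q) ℂ), IsIdemL1 e →
        ∀ C : ConjClasses G, C ≠ ConjClasses.mk 1 → hsTrace C e = 0) := by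
  refine ⟨?_, ?_, ?_⟩
  · intro G K _ _ n ρ g a hroot ha q e he
    exact hsTrace_eq_zero_linear ρ g a hroot ha he
  · intro G K _ _ p hp hchar n ρ hρ q e he
    haveI : Fact p.Prime := ⟨hp⟩
    have main : ∀ g : G, ¬IsOfFinOrder g → hsTrace (ConjClasses.mk g) e = 0 := by
      intro g hg
      by_contra hne
      apply hg
      obtain ⟨N, hN, hN1⟩ := finite_order_of_roots (K := K) p (ρ g) fun a ha => by
        by_contra hno
        push Not at hno
        exact hne (hsTrace_eq_zero_linear ρ g a ha hno he)
      exact isOfFinOrder_iff_pow_eq_one.mpr ⟨N, hN, hρ (by rw [map_pow, hN1, map_one])⟩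
    refine ⟨main, fun htf C hC => ?_⟩
    obtain ⟨g, rfl⟩ := ConjClasses.mk_surjective C
    exact main g fun h => hC (by rw [htf g h])
  · intro G K _ _ n ρ hev q e he C hC
    obtain ⟨g, rfl⟩ := ConjClasses.mk_surjective C
    obtain ⟨a, ha, ha'⟩ := hev g fun h => hC (by rw [h])
    exact hsTrace_eq_zero_linear ρ g a ha ha' he

end Vale.Agent.Results.P184.LinearGroups
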