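import Vale.Agent.P184.FreeExt
import Vale.Agent.P184.Transfer

namespace Vale.Agent.Results.P184.TwistVanishing

open Vale.Agent.P184
open scoped commutatorElement

/-- (A) The trace coefficient of every `ℓ¹` idempotent vanishes at every class moved by a real
cocycle over a finite permutation representation; (B) in particular at every element with nonzero image under a real homomorphism of a
finite-index subgroup containing it; (C) the conjecture holds for every group `F/[N,N]` with `F`
free and `F/N` residually finite. -/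
theorem result :
    (∀ (G : Type) [Group G] (X : Type) [Fintype X] (σ : G →* Equiv.Perm X) (c : G → X → ℝ),
      (∀ a b x, c (a * b) x = c a (σ b x) + c b x) →
      ∀ (g : G) (x : X), σ g x = x → c g x ≠ 0 →
      ∀ (q : ℕ) (e : G → Matrix (Fin q) (Fin q) ℂ), IsIdemL1 e →
        hsTrace (ConjClasses.mk g) e = 0) ∧
    (∀ (G : Type) [Group G] (H : Subgroup G) [H.FiniteIndex] (φ : H →* Multiplicative ℝ)
      (g : G) (hg : g ∈ H), φ ⟨g, hg⟩ ≠ 1 →
      ∀ (q : ℕ) (e : G → Matrix (Fin q) (Fin q) ℂ), IsIdemL1 e →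
        hsTrace (ConjClasses.mk g) e = 0) ∧
    ∀ (S : Type) (N : Subgroup (FreeGroup S)) [N.Normal],
      (∀ x, x ∉ N → ∃ M : Subgroup (FreeGroup S), M.Normal ∧ M.FiniteIndex ∧ N ≤ M ∧ x ∉ M) →
      ∀ (q : ℕ) (e : FreeGroup S ⧸ ⁅N, N⁆ → Matrix (Fin q) (Fin q) ℂ), IsIdemL1 e →
      ∀ C : ConjClasses (FreeGroup S ⧸ ⁅N, N⁆), C ≠ ConjClasses.mk 1 → hsTrace C e = 0 := by
  classical
  refine ⟨?_, ?_, ?_⟩
  · intro G _ X _ σ c hc g x hfix hne q e he
    exact hsTrace_eq_zero σ c hc g x hfix hne he
  · intro G _ H _ φ g hg hne q e he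
    exact hsTrace_eq_zero_of_hom H φ g hg hne he
  · intro S N _ hRF q e he C hC
    exact hsTrace_free_ext N hRF q e he C hC

end Vale.Agent.Results.P184.TwistVanishing
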