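import Vale.Agent.P184.Growth

namespace Vale.Agent.Results.P184.Vanishing

open Vale.Agent.P184
open Subgroup

/-- For every group: (A) every trace coefficient decays exponentially in the length of the class,
for every subadditive length; (B) it vanishes at every element with an equivariant function of
subexponential displacement; (C) in particular where the centralizer carries a polynomially
bounded homomorphism nonzero at `g` and conjugators are polynomially long; (D) and at every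
undistorted element with amenable or commutative centralizer; (E) so the conjecture holds for
groups with finitely many torsion classes whose infinite-order elements are of type (D). -/
theorem result :
    (∀ (G : Type) [Group G] (d : G → ℝ), (∀ x, 0 ≤ d x) → (∀ x y, d (x * y) ≤ d x + d y) →
      ∀ (q : ℕ) (e : G → Matrix (Fin q) (Fin q) ℂ), IsIdemL1 e →
        ∃ s c : ℝ, 0 < s ∧ ∀ (g : G) (r : ℝ), (∀ u, IsConj g u → r ≤ d u) →
          ‖hsTrace (ConjClasses.mk g) e‖ ≤ c * Real.exp (-(s * r))) ∧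
    (∀ (G : Type) [Group G] (g : G) (d F φ : G → ℝ) (D : ℝ),
      (∀ x, 0 ≤ d x) → (∀ x y, d (x * y) ≤ d x + d y) →
      (∀ ε : ℝ, 0 < ε → ∃ c, ∀ k x,
        |F (k * x) - F x| ≤ c * Real.exp (ε * (d k + d (x * g * x⁻¹)))) →
      (∀ a b, a ∈ centralizer {g} → b ∈ centralizer {g} → φ (a * b) = φ a + φ b) →
      (∀ x z, z ∈ centralizer {g} → |F (x * z) - F x - φ z| ≤ D) → φ g ≠ 0 →
      ∀ (q : ℕ) (e : G → Matrix (Fin q) (Fin q) ℂ), IsIdemL1 e →
        hsTrace (ConjClasses.mk g) e = 0) ∧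
    (∀ (G : Type) [Group G] (g : G) (d φ : G → ℝ) (N : ℕ) (c : ℝ),
      (∀ x, 0 ≤ d x) → (∀ x y, d (x * y) ≤ d x + d y) → (∀ x, d x⁻¹ = d x) →
      (∀ a b, a ∈ centralizer {g} → b ∈ centralizer {g} → φ (a * b) = φ a + φ b) →
      (∀ z, z ∈ centralizer {g} → |φ z| ≤ c * (1 + d z) ^ N) →
      (∀ u, IsConj g u → ∃ x, x * g * x⁻¹ = u ∧ d x ≤ c * (1 + d u) ^ N) → φ g ≠ 0 →
      ∀ (q : ℕ) (e : G → Matrix (Fin q) (Fin q) ℂ), IsIdemL1 e →
        hsTrace (ConjClasses.mk g) e = 0) ∧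
    (∀ (G : Type) [Group G] (g : G) (d : G → ℝ) (ε : ℝ),
      (∀ x y, d (x * y) ≤ d x + d y) → (∀ x, d x⁻¹ = d x) → 0 < ε →
      (∀ n : ℕ, ε * n ≤ d (g ^ n)) →
      (HasInvMean (centralizer {g}) ∨
        ∀ a b, a ∈ centralizer {g} → b ∈ centralizer {g} → a * b = b * a) →
      ∀ (q : ℕ) (e : G → Matrix (Fin q) (Fin q) ℂ), IsIdemL1 e →
        hsTrace (ConjClasses.mk g) e = 0) ∧
    ∀ (G : Type) [Group G], {C : ConjClasses G | ∃ g, C = ConjClasses.mk g ∧ IsOfFinOrder g}.Finite →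
      (∀ g : G, ¬IsOfFinOrder g → HasInvMean (centralizer {g}) ∧
        ∃ (d : G → ℝ) (ε : ℝ), (∀ x y, d (x * y) ≤ d x + d y) ∧ (∀ x, d x⁻¹ = d x) ∧ 0 < ε ∧
          ∀ n : ℕ, ε * n ≤ d (g ^ n)) →
      ∀ (q : ℕ) (e : G → Matrix (Fin q) (Fin q) ℂ), IsIdemL1 e →
        ∃ Fs : Finset (ConjClasses G),
          (∀ C ∈ Fs, ∃ g, C = ConjClasses.mk g ∧ IsOfFinOrder g) ∧
          ∀ C, C ∉ Fs → hsTrace C e = 0 := by
  refine ⟨?_, ?_, ?_, ?_, ?_⟩
  · intro G _ d h0 h1 q e he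
    exact hsTrace_decay ⟨d, h0, h1⟩ he
  · intro G _ g d F φ D h0 h1 hgrow hhom heq hne q e he
    exact hsTrace_eq_zero_of_coarse_subexp g ⟨d, h0, h1⟩ F φ D hgrow hhom heq hne he
  · intro G _ g d φ N c h0 h1 hsymm hhom hφ hcl hne q e he
    exact hsTrace_eq_zero_of_poly g ⟨d, h0, h1⟩ hsymm φ N c hhom hφ hcl hne he
  · intro G _ g d ε hd hsymm hε hlin hA q e he
    refine hsTrace_eq_zero_of_undistorted g d hd hsymm hε hlin ?_ he
    rcases hA with h | h
    · exact h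
    · exact hasInvMean_of_comm _ fun a b => Subtype.ext (h a b a.2 b.2)
  · intro G _ hfin hall q e he
    refine ⟨hfin.toFinset, fun C hC => hfin.mem_toFinset.mp hC, fun C hC => ?_⟩
    obtain ⟨g, rfl⟩ := ConjClasses.mk_surjective C
    have hg : ¬IsOfFinOrder g := fun h => hC (hfin.mem_toFinset.mpr ⟨g, rfl, h⟩)
    obtain ⟨hA, d, ε, hd, hsymm, hε, hlin⟩ := hall g hg
    exact hsTrace_eq_zero_of_undistorted g d hd hsymm hε hlin hA he

end Vale.Agent.Results.P184.Vanishing
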